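import Mathlib
import Vale.Agent.P335.Defs
import Vale.Agent.P335.Main

/-!
The switch chain on the simple graphs with any prescribed degree sequence mixes in polynomial time.
-/

namespace Vale.Agent.Results.P335.SwitchMixing

open scoped Classical
open Vale.Agent.P335

theorem result : ∀ (n : ℕ), 4 ≤ n → ∀ (d : Fin n → ℕ) (G : Realization d) (t : ℕ), n ^ 6 ≤ t →
    (1 / 2 : ℝ) * ∑ H : Realization d,
      |(switchChain d ^ t) G H - 1 / (Fintype.card (Realization d) : ℝ)| ≤ 1 / 4 :=
  fun _ hn _ G t ht => switch_mixing hn G t ht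

end Vale.Agent.Results.P335.SwitchMixing
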